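import Vale.Agent.P100W.Lift
import Vale.Agent.P100W.Continuation
import Vale.Agent.P100W.Low

/-!
The Lane–Emden conjecture in every dimension and its weighted form: no positive entire solution of
the Hénon–Lane–Emden system for subcritical parameters with `A, B ≤ 0`, and for arbitrary real
weights when the exponents are also subcritical for the unweighted system in some dimension
`m ≥ max n 5`, or when both decay exponents exceed `(n - 2) / 2`, or when the larger unweighted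
scaling exponent exceeds `n - 3`.
-/

noncomputable section

namespace Vale.Agent.Results.P100.HenonLaneEmden

open Vale.Agent.P100 Vale.Agent.P100W

theorem result :
    (∀ n : ℕ, 3 ≤ n → ∀ p q : ℝ, 0 < p → 0 < q →
      ((n : ℝ) - 2) / n < 1 / (p + 1) + 1 / (q + 1) →
      ¬ ∃ u v : Euc n → ℝ, IsPositiveEntireSolution p q u v) ∧
    (∀ n : ℕ, 3 ≤ n → ∀ A B p q : ℝ, 0 < p → 0 < q → A ≤ 0 → B ≤ 0 →
      (n : ℝ) - 2 < ((n : ℝ) + A) / (p + 1) + ((n : ℝ) + B) / (q + 1) →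
      ¬ ∃ u v : Euc n → ℝ, IsWeightedSolution A B p q u v) ∧
    (∀ n m : ℕ, 3 ≤ n → 5 ≤ m → n ≤ m → ∀ A B p q : ℝ, 0 < p → 0 < q →
      (n : ℝ) - 2 < ((n : ℝ) + A) / (p + 1) + ((n : ℝ) + B) / (q + 1) →
      ((m : ℝ) - 2) / m < 1 / (p + 1) + 1 / (q + 1) →
      ¬ ∃ u v : Euc n → ℝ, IsWeightedSolution A B p q u v) ∧
    (∀ n : ℕ, 3 ≤ n → ∀ A B p q : ℝ, 0 < p → 0 < q →
      ((n : ℝ) - 2) * (p * q - 1) < 2 * (2 + A + p * (2 + B)) →
      ((n : ℝ) - 2) * (p * q - 1) < 2 * (2 + B + q * (2 + A)) →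
      ¬ ∃ u v : Euc n → ℝ, IsWeightedSolution A B p q u v) ∧
    (∀ n : ℕ, 3 ≤ n → ∀ A B p q : ℝ, 0 < p → 0 < q →
      (n : ℝ) - 2 < ((n : ℝ) + A) / (p + 1) + ((n : ℝ) + B) / (q + 1) →
      ((n : ℝ) - 3) * (p * q - 1) < 2 * (max p q + 1) →
      ¬ ∃ u v : Euc n → ℝ, IsWeightedSolution A B p q u v) ∧
    ∀ n : ℕ, 3 ≤ n → ∀ A B p q : ℝ, 0 < p → 0 < q → (A ≤ -2 ∨ B ≤ -2 ∨ p * q ≤ 1) →
      ¬ ∃ u v : Euc n → ℝ, IsWeightedSolution A B p q u v :=
  ⟨fun _ hn _ _ hp hq h => no_solution_lane_emden hn hp hq h,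
    fun _ hn _ _ _ _ hp hq hA hB h => no_solution_nonpos_three hn hp hq hA hB h,
    fun _ _ hn hm hnm _ _ _ _ hp hq h h' => no_solution_lifted hn hm hnm hp hq h h',
    fun _ hn _ _ _ _ hp hq h h' => no_solution_decay hn hp hq h h',
    fun _ hn _ _ _ _ hp hq h h' => no_solution_souplet hn hp hq h h',
    fun _ hn _ _ _ _ hp hq h => no_solution_elementary hn hp hq h⟩

end Vale.Agent.Results.P100.HenonLaneEmden
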